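import Vale.Agent.Lib.P040.TP.Gen.NB.Zones

/-!
The zone inequalities of a straddling pair in the near regime, summed over the columns.
-/

namespace Vale.Agent.Lib.P040.TP.Gen.NB

/-- A vertex in a gap `g ≥ h` is pure in the columns to its right. -/
theorem prof_right_pure (h g j : ℕ) (ε : ℕ → ℤ) (hε : IsSign ε) (hg : h ≤ g) (hgj : g ≤ j)
    (hj : j < 2 * h + 1) : prof (2 * h + 1) g ε j = suf (2 * h + 1) ε j := by
  have hadd := cnt_add (2 * h + 1) (j + 1) (by omega) ε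
  have hp := cntp_nonneg (2 * h + 1) (j + 1) ε
  have hm := cntm_nonneg (2 * h + 1) (j + 1) ε
  have hsuf : suf (2 * h + 1) ε j
      = cntp (2 * h + 1) ε (j + 1) - cntm (2 * h + 1) ε (j + 1) :=
    (cnt_sub (2 * h + 1) (j + 1) ε hε).symm
  unfold prof phi
  rw [if_pos hgj, hsuf]
  unfold dcol
  push_cast at hadd ⊢
  generalize cntp (2 * h + 1) ε (j + 1) = P at *
  generalize cntm (2 * h + 1) ε (j + 1) = Mm at *
  rcases hε j with he | he <;> rw [he] <;> omega

private lemma near_inner (ε : ℕ → ℤ) (e : ℤ) (l : ℕ) :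
    ∑ k ∈ Finset.range l, (1 + ε k * e) = (l : ℤ) + e * pre ε l := by
  unfold pre
  rw [Finset.sum_add_distrib, Finset.sum_const, Finset.card_range, Finset.mul_sum]
  congr 1
  · simp
  · exact Finset.sum_congr rfl (fun k _ => mul_comm _ _)

private lemma near_sq_sum (ε' : ℕ → ℤ) (hε' : IsSign ε') (g : ℕ) :
    ∑ l ∈ Finset.range g, 2 * (ε' l * pre ε' l - (l : ℤ)) = (pre ε' g) ^ 2 - (g : ℤ) ^ 2 := by
  induction g with
  | zero => simp [pre]
  | succ g ih =>
    rw [Finset.sum_range_succ, ih]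
    have hp : pre ε' (g + 1) = pre ε' g + ε' g := by
      unfold pre
      rw [Finset.sum_range_succ]
    rw [hp]
    push_cast
    rcases hε' g with he | he <;> rw [he] <;> ring

/-- Left zone: both vertices see the points `0, ..., g-1` on their left; the first one is pure
there. -/
theorem near_zoneL (h g g' : ℕ) (ε ε' : ℕ → ℤ) (hε : IsSign ε) (hε' : IsSign ε') (hgh : g ≤ h) :
    2 * ∑ l ∈ Finset.range g, omegaL (2 * h + 1) g' ε' l + (pre ε' g) ^ 2 - (g : ℤ) ^ 2
      ≤ 2 * (∑ l ∈ Finset.range g, ∑ k ∈ Finset.range l, (1 + ε k * ε' l)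
        - ∑ j ∈ Finset.range g, agree2 (2 * h + 1) g g' ε ε' j) := by
  have hsum : ∑ l ∈ Finset.range g,
        (2 * omegaL (2 * h + 1) g' ε' l + 2 * (ε' l * pre ε' l - (l : ℤ)))
      ≤ ∑ l ∈ Finset.range g, 2 * (∑ k ∈ Finset.range l, (1 + ε k * ε' l)
          - agree2 (2 * h + 1) g g' ε ε' l) := by
    apply Finset.sum_le_sum
    intro l hl
    have hl' : l < g := Finset.mem_range.mp hl
    unfold agree2 omegaL
    rw [if_neg (by omega), prof_left_pure h g l ε hε (by omega) hl', dcol_left h l (by omega),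
      near_inner ε (ε' l) l]
    unfold prof
    rcases hε' l with he | he
    · rw [he]
      have := neg_abs_le (pre ε l - 1 * phi (2 * h + 1) g' ε' l)
      linarith
    · rw [he]
      have := le_abs_self (pre ε l - -1 * phi (2 * h + 1) g' ε' l)
      linarith
  rw [Finset.sum_add_distrib, near_sq_sum ε' hε' g, ← Finset.mul_sum, ← Finset.mul_sum,
    Finset.sum_sub_distrib] at hsum
  linarith

/-- Right zone: both vertices see the points `g', ..., n-1` on their right; the second one is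
pure there. -/
theorem near_zoneR (h g g' : ℕ) (ε ε' : ℕ → ℤ) (hε : IsSign ε) (hε' : IsSign ε')
    (hg' : h + 1 ≤ g') (hgn : g' ≤ 2 * h + 1) :
    (∑ l ∈ Finset.Ico g' (2 * h + 1), ε l) ^ 2 - (2 * (h : ℤ) + 1 - g') ^ 2
        + 2 * ∑ j ∈ Finset.Ico g' (2 * h + 1), omega (2 * h + 1) g ε j
      ≤ 2 * (∑ k ∈ Finset.Ico g' (2 * h + 1), ∑ l ∈ Finset.Ico (k + 1) (2 * h + 1),
            (1 + ε k * ε' l)
        - ∑ j ∈ Finset.Ico g' (2 * h + 1), agree2 (2 * h + 1) g g' ε ε' j) := by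
  have hz := zrt (2 * h + 1) g' hgn ε ε' hε hε' (fun j => prof (2 * h + 1) g ε j)
    (fun j => prof (2 * h + 1) g' ε' j) (fun j => dcol (2 * h + 1) j)
  have e1 : ∑ j ∈ Finset.Ico g' (2 * h + 1),
        (2 * (((2 * h + 1 : ℕ) : ℤ) - 1 - j - dcol (2 * h + 1) j)
          + ε j * (prof (2 * h + 1) g ε j - suf (2 * h + 1) ε j)
          - |ε' j * (prof (2 * h + 1) g' ε' j - suf (2 * h + 1) ε' j)|)
      = ∑ j ∈ Finset.Ico g' (2 * h + 1), omega (2 * h + 1) g ε j := by
    apply Finset.sum_congr rfl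
    intro j hj
    obtain ⟨hj1, hj2⟩ := Finset.mem_Ico.mp hj
    rw [prof_right_pure h g' j ε' hε' (by omega) hj1 hj2, sub_self, mul_zero, abs_zero]
    have hd : dcol (2 * h + 1) j = 2 * (h : ℤ) - j := by
      unfold dcol
      push_cast
      omega
    rw [hd]
    unfold prof omega
    have hsq : ε j * ε j = 1 := by
      rcases hε j with h1 | h1 <;> rw [h1] <;> norm_num
    push_cast
    linear_combination (phi (2 * h + 1) g ε j) * hsq
  have e2 : ∑ j ∈ Finset.Ico g' (2 * h + 1),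
        (2 * dcol (2 * h + 1) j - |prof (2 * h + 1) g ε j - prof (2 * h + 1) g' ε' j|)
      = ∑ j ∈ Finset.Ico g' (2 * h + 1), agree2 (2 * h + 1) g g' ε ε' j := by
    apply Finset.sum_congr rfl
    intro j hj
    obtain ⟨hj1, hj2⟩ := Finset.mem_Ico.mp hj
    unfold agree2
    rw [if_neg (by omega)]
  rw [e1, e2] at hz
  push_cast at hz ⊢
  linarith

/-- The column inequality of the middle zone. -/
theorem near_col (h g g' : ℕ) (ε ε' : ℕ → ℤ) (hε : IsSign ε) (hε' : IsSign ε')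
    (hgh : g ≤ h) (hg' : h + 1 ≤ g') (hgn : g' ≤ 2 * h + 1) (hnear : g' ≤ g + h + 1)
    (j : ℕ) (hj1 : g ≤ j) (hj2 : j < g') :
    -2 * ((if ε j = 1 then |cnt 1 ε (j + 1) g' - ((h : ℤ) - cnt 1 ε' 0 g - cnt 1 ε g' (2 * h + 1))| else 0)
          + (if ε j = (-1) then |cnt (-1) ε (j + 1) g' - ((h : ℤ) - cnt (-1) ε' 0 g - cnt (-1) ε g' (2 * h + 1))| else 0))
        + |omega (2 * h + 1) g ε j| + |omegaL (2 * h + 1) g' ε' j|
        + 4 * ((if ε j = 1 then (if cnt (-1) ε g' (2 * h + 1) ≤ cnt 1 ε (j + 1) g' then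
            min (cnt 1 ε' g j) (max (((h : ℤ) - cnt 1 ε' 0 g - cnt 1 ε g' (2 * h + 1)) - cnt 1 ε (j + 1) g') 0) else 0) else 0)
          + (if ε j = (-1) then (if cnt 1 ε g' (2 * h + 1) ≤ cnt (-1) ε (j + 1) g' then
            min (cnt (-1) ε' g j) (max (((h : ℤ) - cnt (-1) ε' 0 g - cnt (-1) ε g' (2 * h + 1)) - cnt (-1) ε (j + 1) g') 0) else 0) else 0))
        - 4 * ((if ε' j = 1 then
            max (min (cnt 1 ε (j + 1) g') (((h : ℤ) - cnt 1 ε' 0 g - cnt 1 ε g' (2 * h + 1)) - cnt 1 ε' g j) - cnt (-1) ε g' (2 * h + 1)) 0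
            else 0)
          + (if ε' j = (-1) then
            max (min (cnt (-1) ε (j + 1) g') (((h : ℤ) - cnt (-1) ε' 0 g - cnt (-1) ε g' (2 * h + 1)) - cnt (-1) ε' g j) - cnt 1 ε g' (2 * h + 1)) 0
            else 0))
      ≤ ∑ l ∈ Finset.Ico g j, (1 + ε j * ε' l) - agree2 (2 * h + 1) g g' ε ε' j := by
  have d1 : ¬ ((1 : ℤ) = -1) := by decide
  have d2 : ¬ ((-1 : ℤ) = 1) := by decide
  rcases hε j with he | he <;> rcases hε' j with he' | he'
  · have key := near_col_same h g g' ε ε' hε hε' hgh hg' hgn hnear j hj1 hj2 1 (Or.inl rfl)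
      he he'
    simp only [he, he', d1, if_true, if_false, add_zero]
    linarith [key]
  · have key := near_col_diff h g g' ε ε' hε hε' hgh hg' hgn hnear j hj1 hj2 1 (Or.inl rfl)
      he he'
    simp only [he, he', d1, d2, if_true, if_false, add_zero, zero_add]
    linarith [key]
  · have key := near_col_diff h g g' ε ε' hε hε' hgh hg' hgn hnear j hj1 hj2 (-1) (Or.inr rfl)
      he (by rw [he', neg_neg])
    simp only [neg_neg] at key
    simp only [he, he', d1, d2, if_true, if_false, add_zero, zero_add]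
    linarith [key]
  · have key := near_col_same h g g' ε ε' hε hε' hgh hg' hgn hnear j hj1 hj2 (-1) (Or.inr rfl)
      he he'
    simp only [neg_neg] at key
    simp only [he, he', d2, if_true, if_false, zero_add]
    linarith [key]

/-- The middle zone, summed over its columns. -/
theorem near_zoneM (h g g' : ℕ) (ε ε' : ℕ → ℤ) (hε : IsSign ε) (hε' : IsSign ε')
    (hgh : g ≤ h) (hg' : h + 1 ≤ g') (hgn : g' ≤ 2 * h + 1) (hnear : g' ≤ g + h + 1) :
    -2 * (∑ j ∈ Finset.Ico g g', (if ε j = 1 then |cnt 1 ε (j + 1) g' - ((h : ℤ) - cnt 1 ε' 0 g - cnt 1 ε g' (2 * h + 1))| else 0)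
          + ∑ j ∈ Finset.Ico g g', (if ε j = (-1) then |cnt (-1) ε (j + 1) g' - ((h : ℤ) - cnt (-1) ε' 0 g - cnt (-1) ε g' (2 * h + 1))| else 0))
        + ∑ j ∈ Finset.Ico g g', |omega (2 * h + 1) g ε j|
        + ∑ j ∈ Finset.Ico g g', |omegaL (2 * h + 1) g' ε' j|
      ≤ ∑ k ∈ Finset.Ico g g', ∑ l ∈ Finset.Ico g k, (1 + ε k * ε' l)
        - ∑ j ∈ Finset.Ico g g', agree2 (2 * h + 1) g g' ε ε' j := by
  have hp1 := pair_count 1 ε ε' g g' (cnt (-1) ε g' (2 * h + 1))
    ((h : ℤ) - cnt 1 ε' 0 g - cnt 1 ε g' (2 * h + 1)) (cnt_nonneg _ _ _ _)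
  have hp2 := pair_count (-1) ε ε' g g' (cnt 1 ε g' (2 * h + 1))
    ((h : ℤ) - cnt (-1) ε' 0 g - cnt (-1) ε g' (2 * h + 1)) (cnt_nonneg _ _ _ _)
  have hsum := Finset.sum_le_sum (fun j hj => near_col h g g' ε ε' hε hε' hgh hg' hgn hnear j
    (Finset.mem_Ico.mp hj).1 (Finset.mem_Ico.mp hj).2)
  simp only [Finset.sum_add_distrib, Finset.sum_sub_distrib, ← Finset.mul_sum] at hsum ⊢
  linarith

end Vale.Agent.Lib.P040.TP.Gen.NB
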