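import Vale.Agent.Lib.P040.TP.Gen.Split
import Vale.Agent.Lib.P040.TP.Gen.NB.Sum

namespace Vale.Agent.Lib.P040.TP.Gen.NB

/-- The two-star inequality for two vertices in gaps `g ≤ h < g'` with at most `h + 1` points
between them: agreements are at most crossings (both doubled). -/
theorem core_near_gen (h g g' : ℕ) (ε ε' : ℕ → ℤ) (hε : IsSign ε) (hε' : IsSign ε')
    (hgh : g ≤ h) (hg' : h + 1 ≤ g') (hgn : g' ≤ 2 * h + 1) (hnear : g' ≤ g + h + 1) :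
    ∑ j ∈ Finset.range (2 * h + 1), agree2 (2 * h + 1) g g' ε ε' j
      ≤ cross2 (2 * h + 1) g g' ε ε' := by
  have hgg : g ≤ g' := by omega
  rw [cross2_split (2 * h + 1) g g' hgg hgn ε ε', cross_rect (2 * h + 1) g g' hgn ε ε',
    ← Finset.sum_range_add_sum_Ico _ hgn, ← Finset.sum_range_add_sum_Ico _ hgg]
  have hL := near_zoneL h g g' ε ε' hε hε' hgh
  have hM := near_zoneM h g g' ε ε' hε hε' hgh hg' hgn hnear
  have hR := near_zoneR h g g' ε ε' hε hε' hg' hgn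
  have hW := near_W h g g' ε hε hgh hg' hgn
  have hW' := near_W' h g g' ε' hε' hgh hg' hgn
  have hr1 := rank_sum 1 ε g' ((h : ℤ) - cnt 1 ε' 0 g - cnt 1 ε g' (2 * h + 1)) (g' - g) g
    (by omega)
  have hr2 := rank_sum (-1) ε g' ((h : ℤ) - cnt (-1) ε' 0 g - cnt (-1) ε g' (2 * h + 1))
    (g' - g) g (by omega)
  have hE : ∑ l ∈ Finset.Ico g' (2 * h + 1), ε l
      = cnt 1 ε g' (2 * h + 1) - cnt (-1) ε g' (2 * h + 1) :=
    (cnt_sub_sign ε hε g' (2 * h + 1)).symm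
  have hE' : pre ε' g = cnt 1 ε' 0 g - cnt (-1) ε' 0 g := pre_eq_cnt ε' hε' g
  have ha := cnt_add_sign ε' hε' 0 g (Nat.zero_le g)
  have hc := cnt_add_sign ε hε g' (2 * h + 1) hgn
  have hZ := cnt_add_sign ε hε g g' hgg
  push_cast at ha hc hZ
  have hfin := near_final h g g' (cnt 1 ε' 0 g) (cnt (-1) ε' 0 g) (cnt 1 ε g' (2 * h + 1))
    (cnt (-1) ε g' (2 * h + 1)) (cnt 1 ε g g') (cnt (-1) ε g g') (by linarith) (by linarith)
    hZ
  have n1 := near_RR_nonneg (-((h : ℤ) - cnt 1 ε' 0 g - cnt 1 ε g' (2 * h + 1)))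
  have n2 := near_RR_nonneg (-((h : ℤ) - cnt (-1) ε' 0 g - cnt (-1) ε g' (2 * h + 1)))
  rw [hE] at hR
  rw [hE'] at hL
  rw [hE, hE']
  push_cast at hL hM hR hW hW' ⊢
  linarith [hL, hM, hR, hW, hW', hr1, hr2, hfin, n1, n2]

end Vale.Agent.Lib.P040.TP.Gen.NB
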