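import Vale.Agent.Lib.P040.TP.Gen.Count

/-!
Counting the points of a given sign in an interval of the spine, and the relation with the
counts `cntp`, `cntm` of the points to the right of a column.
-/

namespace Vale.Agent.Lib.P040.TP.Gen.NB

/-- Number of points `l` with `a ≤ l < b` whose sign is `e`. -/
def cnt (e : ℤ) (ε : ℕ → ℤ) (a b : ℕ) : ℤ := ∑ l ∈ Finset.Ico a b, if ε l = e then 1 else 0

theorem cnt_nonneg (e : ℤ) (ε : ℕ → ℤ) (a b : ℕ) : 0 ≤ cnt e ε a b := by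
  unfold cnt
  apply Finset.sum_nonneg
  intro l _
  split_ifs <;> simp

theorem cnt_self (e : ℤ) (ε : ℕ → ℤ) (a : ℕ) : cnt e ε a a = 0 := by
  unfold cnt
  simp

theorem cnt_succ_right (e : ℤ) (ε : ℕ → ℤ) (a b : ℕ) (hab : a ≤ b) :
    cnt e ε a (b + 1) = cnt e ε a b + (if ε b = e then 1 else 0) := by
  unfold cnt
  rw [Finset.sum_Ico_succ_top hab]

theorem cnt_succ_left (e : ℤ) (ε : ℕ → ℤ) (a b : ℕ) (hab : a < b) :
    cnt e ε a b = cnt e ε (a + 1) b + (if ε a = e then 1 else 0) := by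
  unfold cnt
  rw [Finset.sum_eq_sum_Ico_succ_bot hab, add_comm]

theorem cnt_split (e : ℤ) (ε : ℕ → ℤ) (a m b : ℕ) (h1 : a ≤ m) (h2 : m ≤ b) :
    cnt e ε a b = cnt e ε a m + cnt e ε m b := by
  unfold cnt
  rw [Finset.sum_Ico_consecutive _ h1 h2]

theorem cnt_add_sign (ε : ℕ → ℤ) (hε : IsSign ε) (a b : ℕ) (hab : a ≤ b) :
    cnt 1 ε a b + cnt (-1) ε a b = (b : ℤ) - a := by
  unfold cnt
  rw [← Finset.sum_add_distrib]
  have h1 : ∀ l ∈ Finset.Ico a b,
      ((if ε l = 1 then (1 : ℤ) else 0) + (if ε l = -1 then 1 else 0)) = 1 := by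
    intro l _
    rcases hε l with h | h <;> rw [h] <;> simp
  rw [Finset.sum_congr rfl h1]
  simp [Nat.cast_sub hab]

theorem cnt_sub_sign (ε : ℕ → ℤ) (hε : IsSign ε) (a b : ℕ) :
    cnt 1 ε a b - cnt (-1) ε a b = ∑ l ∈ Finset.Ico a b, ε l := by
  unfold cnt
  rw [← Finset.sum_sub_distrib]
  apply Finset.sum_congr rfl
  intro l _
  rcases hε l with h | h <;> rw [h] <;> simp

theorem cntp_eq_cnt (n k : ℕ) (ε : ℕ → ℤ) : cntp n ε k = cnt 1 ε k n := rfl

theorem cntm_eq_cnt (n k : ℕ) (ε : ℕ → ℤ) (hε : IsSign ε) : cntm n ε k = cnt (-1) ε k n := by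
  unfold cntm cnt
  apply Finset.sum_congr rfl
  intro l _
  rcases hε l with h | h <;> rw [h] <;> simp

/-- The count selected by the sign of a point. -/
theorem sel_cnt (n k j : ℕ) (ε : ℕ → ℤ) (hε : IsSign ε) :
    (if ε j = 1 then cntp n ε k else cntm n ε k) = cnt (ε j) ε k n := by
  rcases hε j with h | h
  · rw [h, if_pos rfl, cntp_eq_cnt]
  · rw [h, if_neg (by decide), cntm_eq_cnt n k ε hε]

theorem pre_eq_cnt (ε : ℕ → ℤ) (hε : IsSign ε) (j : ℕ) :
    pre ε j = cnt 1 ε 0 j - cnt (-1) ε 0 j := by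
  rw [cnt_sub_sign ε hε]
  unfold pre
  rw [Finset.range_eq_Ico]

/-- Crossings of the edge to a point of sign `e` with the edges of the other vertex to an
interval: twice the number of points of sign `e`. -/
theorem cross_cnt (e : ℤ) (he : e = 1 ∨ e = -1) (ε' : ℕ → ℤ) (hε' : IsSign ε') (a b : ℕ) :
    ∑ l ∈ Finset.Ico a b, (1 + e * ε' l) = 2 * cnt e ε' a b := by
  unfold cnt
  rw [Finset.mul_sum]
  apply Finset.sum_congr rfl
  intro l _
  rcases he with h | h <;> rcases hε' l with h' | h' <;> rw [h, h'] <;> simp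

theorem cnt_add_sign' (e : ℤ) (he : e = 1 ∨ e = -1) (ε : ℕ → ℤ) (hε : IsSign ε) (a b : ℕ)
    (hab : a ≤ b) : cnt e ε a b + cnt (-e) ε a b = (b : ℤ) - a := by
  rcases he with rfl | rfl
  · exact cnt_add_sign ε hε a b hab
  · rw [neg_neg, add_comm]
    exact cnt_add_sign ε hε a b hab

end Vale.Agent.Lib.P040.TP.Gen.NB
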