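import Vale.Agent.Lib.P040.TP.Gen.NB.Cnt
import Vale.Agent.Lib.P040.TP.Gen.PCCol

/-!
The middle zone of a straddling pair in the near regime, one column: the profiles of the two
vertices in count form and the column inequality.
-/

namespace Vale.Agent.Lib.P040.TP.Gen.NB

/-- Clamp correction of a vertex in gap `g` in a column `j` to its left. -/
def omegaL (n g : ℕ) (ε : ℕ → ℤ) (j : ℕ) : ℤ := phi n g ε j - ε j * pre ε j

/-- The column value of a vertex in a column to its right, in count form. -/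
theorem phi_cnt_right (h g j : ℕ) (ε : ℕ → ℤ) (hε : IsSign ε) (hgj : g ≤ j)
    (hj : j < 2 * h + 1) :
    phi (2 * h + 1) g ε j =
      2 * min (h : ℤ) (min (2 * (h : ℤ) - j)
        (max (cnt (ε j) ε (j + 1) (2 * h + 1)) ((h : ℤ) - g))) - (2 * (h : ℤ) - j) := by
  rw [phi_count h g j ε hε hgj hj, sel_cnt (2 * h + 1) (j + 1) j ε hε]

/-- The clamp correction of a vertex in a column to its right, in count form. -/
theorem omega_cnt_right (h g j : ℕ) (ε : ℕ → ℤ) (hε : IsSign ε) (hgj : g ≤ j)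
    (hj : j < 2 * h + 1) :
    omega (2 * h + 1) g ε j =
      2 * (min (h : ℤ) (min (2 * (h : ℤ) - j)
        (max (cnt (ε j) ε (j + 1) (2 * h + 1)) ((h : ℤ) - g)))
        - cnt (ε j) ε (j + 1) (2 * h + 1)) := by
  rw [omega_count h g j ε hε hgj hj, sel_cnt (2 * h + 1) (j + 1) j ε hε]

/-- The column value of a vertex in a column to its left, in count form. -/
theorem phi_cnt_left (h g j : ℕ) (ε : ℕ → ℤ) (hε : IsSign ε) (hjg : j < g)
    (hg : g ≤ 2 * h + 1) :
    phi (2 * h + 1) g ε j =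
      2 * min (h : ℤ) (min (j : ℤ) (max (cnt (ε j) ε 0 j) ((g : ℤ) - h - 1))) - j := by
  have hadd := cnt_add_sign ε hε 0 j (Nat.zero_le j)
  have hp := cnt_nonneg 1 ε 0 j
  have hm := cnt_nonneg (-1) ε 0 j
  unfold phi
  rw [if_neg (by omega), pre_eq_cnt ε hε j]
  unfold dcol
  push_cast at hadd ⊢
  rcases hε j with he | he
  · rw [he]
    generalize cnt 1 ε 0 j = P at *
    generalize cnt (-1) ε 0 j = Mm at *
    omega
  · rw [he]
    generalize cnt 1 ε 0 j = P at *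
    generalize cnt (-1) ε 0 j = Mm at *
    omega

/-- The clamp correction of a vertex in a column to its left, in count form. -/
theorem omegaL_cnt (h g j : ℕ) (ε : ℕ → ℤ) (hε : IsSign ε) (hjg : j < g)
    (hg : g ≤ 2 * h + 1) :
    omegaL (2 * h + 1) g ε j =
      2 * (min (h : ℤ) (min (j : ℤ) (max (cnt (ε j) ε 0 j) ((g : ℤ) - h - 1)))
        - cnt (ε j) ε 0 j) := by
  have hadd := cnt_add_sign ε hε 0 j (Nat.zero_le j)
  unfold omegaL
  rw [phi_cnt_left h g j ε hε hjg hg, pre_eq_cnt ε hε j]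
  push_cast at hadd
  rcases hε j with he | he
  · rw [he]
    linarith
  · rw [he]
    linarith

/-- Integer form of the column inequality, both vertices on the same page. -/
theorem near_col_same_int (h th th' aS aO cS cO t x y σ σ' : ℤ)
    (hth : 0 ≤ th) (hth' : 0 ≤ th') (hsum : th + th' ≤ h)
    (haS : 0 ≤ aS) (haO : 0 ≤ aO) (hcS : 0 ≤ cS) (hcO : 0 ≤ cO)
    (ha : aS + aO = h - th) (hc : cS + cO = h - th')
    (ht1 : t ≤ th + th')
    (hx0 : 0 ≤ x) (hx1 : x ≤ t) (hy0 : 0 ≤ y) (hy1 : y ≤ th + th' - t)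
    (hσ : (cS + y < th ∧ σ = th) ∨ (th ≤ cS + y ∧ cS + y ≤ h ∧ σ = cS + y) ∨
      (h < cS + y ∧ σ = h))
    (hσ' : (aS + x < th' ∧ σ' = th') ∨ (th' ≤ aS + x ∧ aS + x ≤ h ∧ σ' = aS + x) ∨
      (h < aS + x ∧ σ' = h)) :
    -2 * |y - (h - aS - cS)| + 2 * |σ - (cS + y)| + 2 * |σ' - (aS + x)|
        + 4 * (if cO ≤ y then min x (max (h - aS - cS - y) 0) else 0)
        - 4 * max (min y (h - aS - cS - x) - cO) 0
      ≤ 2 * x - 2 * |σ + σ' - h| := by
  have key := pc_same_core h th th' aS aO cS cO t x y σ σ' hth hth' hsum haS haO hcS hcO ha hc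
    ht1 hx0 hx1 hy0 hy1 hσ hσ'
  have fact : 2 * x = -2 * |y - (h - aS - cS)| + 4 * min x (max (h - aS - cS - y) 0)
      + 2 * |x + y - (h - aS - cS)| := by
    simp only [abs_eq_max_neg]
    omega
  generalize |σ - (cS + y)| = A1 at *
  generalize |σ' - (aS + x)| = A2 at *
  generalize |σ + σ' - h| = A3 at *
  generalize |y - (h - aS - cS)| = A4 at *
  generalize |x + y - (h - aS - cS)| = A5 at *
  generalize max (min y (h - aS - cS - x) - cO) 0 = M2 at *
  generalize min x (max (h - aS - cS - y) 0) = M1 at *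
  split_ifs at key ⊢ <;> omega

/-- Integer form of the column inequality, the two vertices on different pages. -/
theorem near_col_diff_int (h th th' aS aO cS cO t x y σ σ' : ℤ)
    (hth : 0 ≤ th) (hth' : 0 ≤ th') (hsum : th + th' ≤ h)
    (haS : 0 ≤ aS) (haO : 0 ≤ aO) (hcO : 0 ≤ cO)
    (ha : aS + aO = h - th) (hc : cS + cO = h - th')
    (ht0 : 0 ≤ t) (ht1 : t ≤ th + th')
    (hx0 : 0 ≤ x) (hy1 : y ≤ th + th' - t)
    (hσ : (cS + y < th ∧ σ = th) ∨ (th ≤ cS + y ∧ cS + y ≤ h ∧ σ = cS + y) ∨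
      (h < cS + y ∧ σ = h))
    (hσ' : (aO + (t - x) < th' ∧ σ' = th') ∨
      (th' ≤ aO + (t - x) ∧ aO + (t - x) ≤ h ∧ σ' = aO + (t - x)) ∨
      (h < aO + (t - x) ∧ σ' = h)) :
    -2 * |y - (h - aS - cS)| + 2 * |σ - (cS + y)| + 2 * |σ' - (aO + (t - x))|
        + 4 * (if cO ≤ y then min x (max (h - aS - cS - y) 0) else 0)
        - 4 * max (min (th + th' - t - y) (h - aO - cO - (t - x)) - cS) 0
      ≤ 2 * x - 2 * |σ - σ' + t - th| := by
  have key := pc_diff_core h th th' aS aO cS cO t x y σ σ' hth hth' hsum haS haO hcO ha hc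
    ht0 ht1 hx0 hy1 hσ hσ'
  have fact : 2 * x = -2 * |y - (h - aS - cS)| + 4 * min x (max (h - aS - cS - y) 0)
      + 2 * |x + y - (h - aS - cS)| := by
    simp only [abs_eq_max_neg]
    omega
  generalize |σ - (cS + y)| = A1 at *
  generalize |σ' - (aO + (t - x))| = A2 at *
  generalize |σ - σ' + t - th| = A3 at *
  generalize |y - (h - aS - cS)| = A4 at *
  generalize |x + y - (h - aS - cS)| = A5 at *
  generalize max (min (th + th' - t - y) (h - aO - cO - (t - x)) - cS) 0 = M2 at *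
  generalize min x (max (h - aS - cS - y) 0) = M1 at *
  split_ifs at key ⊢ <;> omega

private theorem near_abs_two (a : ℤ) : |2 * a| = 2 * |a| := by
  rw [abs_mul]
  norm_num

/-- The column inequality of the middle zone, both vertices on the page `e` in column `j`. -/
theorem near_col_same (h g g' : ℕ) (ε ε' : ℕ → ℤ) (hε : IsSign ε) (hε' : IsSign ε')
    (hgh : g ≤ h) (hg' : h + 1 ≤ g') (hgn : g' ≤ 2 * h + 1) (hnear : g' ≤ g + h + 1)
    (j : ℕ) (hj1 : g ≤ j) (hj2 : j < g') (e : ℤ) (he : e = 1 ∨ e = -1) (hj : ε j = e)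
    (hj' : ε' j = e) :
    -2 * |cnt e ε (j + 1) g' - ((h : ℤ) - cnt e ε' 0 g - cnt e ε g' (2 * h + 1))|
        + |omega (2 * h + 1) g ε j| + |omegaL (2 * h + 1) g' ε' j|
        + 4 * (if cnt (-e) ε g' (2 * h + 1) ≤ cnt e ε (j + 1) g' then
            min (cnt e ε' g j)
              (max ((h : ℤ) - cnt e ε' 0 g - cnt e ε g' (2 * h + 1) - cnt e ε (j + 1) g') 0)
            else 0)
        - 4 * max (min (cnt e ε (j + 1) g')
              ((h : ℤ) - cnt e ε' 0 g - cnt e ε g' (2 * h + 1) - cnt e ε' g j)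
            - cnt (-e) ε g' (2 * h + 1)) 0
      ≤ ∑ l ∈ Finset.Ico g j, (1 + e * ε' l) - agree2 (2 * h + 1) g g' ε ε' j := by
  have hjn : j < 2 * h + 1 := by omega
  have hagree : agree2 (2 * h + 1) g g' ε ε' j
      = |prof (2 * h + 1) g ε j + prof (2 * h + 1) g' ε' j| := by
    unfold agree2
    rw [if_pos ⟨hj1, hj2⟩]
  rw [cross_cnt e he ε' hε' g j, hagree]
  unfold prof
  rw [omega_cnt_right h g j ε hε hj1 hjn, omegaL_cnt h g' j ε' hε' hj2 hgn,
    phi_cnt_right h g j ε hε hj1 hjn, phi_cnt_left h g' j ε' hε' hj2 hgn, hj, hj']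
  have hs : cnt e ε (j + 1) (2 * h + 1) = cnt e ε g' (2 * h + 1) + cnt e ε (j + 1) g' := by
    rw [cnt_split e ε (j + 1) g' (2 * h + 1) (by omega) hgn, add_comm]
  have hs' : cnt e ε' 0 j = cnt e ε' 0 g + cnt e ε' g j :=
    cnt_split e ε' 0 g j (Nat.zero_le g) hj1
  have ha := cnt_add_sign' e he ε' hε' 0 g (Nat.zero_le g)
  have hc := cnt_add_sign' e he ε hε g' (2 * h + 1) hgn
  have hxx := cnt_add_sign' e he ε' hε' g j hj1
  have hyy := cnt_add_sign' e he ε hε (j + 1) g' (by omega)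
  have n1 := cnt_nonneg e ε' 0 g
  have n2 := cnt_nonneg (-e) ε' 0 g
  have n3 := cnt_nonneg e ε g' (2 * h + 1)
  have n4 := cnt_nonneg (-e) ε g' (2 * h + 1)
  have n5 := cnt_nonneg e ε' g j
  have n6 := cnt_nonneg (-e) ε' g j
  have n7 := cnt_nonneg e ε (j + 1) g'
  have n8 := cnt_nonneg (-e) ε (j + 1) g'
  rw [hs, hs']
  push_cast at ha hc hxx hyy ⊢
  generalize cnt e ε' 0 g = aS at *
  generalize cnt (-e) ε' 0 g = aO at *
  generalize cnt e ε g' (2 * h + 1) = cS at *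
  generalize cnt (-e) ε g' (2 * h + 1) = cO at *
  generalize cnt e ε' g j = x at *
  generalize cnt (-e) ε' g j = xO at *
  generalize cnt e ε (j + 1) g' = y at *
  generalize cnt (-e) ε (j + 1) g' = yO at *
  have hσ := pc_clamp_cases (cS + y) ((h : ℤ) - g) h (2 * (h : ℤ) - j) (by omega) (by omega)
    (by omega)
  have hσ' := pc_clamp_cases (aS + x) ((g' : ℤ) - h - 1) h j (by omega) (by omega) (by omega)
  generalize min (h : ℤ) (min (2 * (h : ℤ) - j) (max (cS + y) ((h : ℤ) - g))) = σ at *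
  generalize min (h : ℤ) (min (j : ℤ) (max (aS + x) ((g' : ℤ) - h - 1))) = σ' at *
  have key := near_col_same_int h ((h : ℤ) - g) ((g' : ℤ) - h - 1) aS aO cS cO ((j : ℤ) - g)
    x y σ σ' (by omega) (by omega) (by omega) n1 n2 n3 n4 (by omega) (by omega) (by omega)
    n5 (by omega) n7 (by omega) hσ hσ'
  have hA3 : |e * (2 * σ - (2 * (h : ℤ) - j)) + e * (2 * σ' - j)| = 2 * |σ + σ' - h| := by
    rcases he with rfl | rfl
    · rw [show (1 : ℤ) * (2 * σ - (2 * (h : ℤ) - j)) + 1 * (2 * σ' - j)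
        = 2 * (σ + σ' - h) by ring]
      exact near_abs_two _
    · rw [show (-1 : ℤ) * (2 * σ - (2 * (h : ℤ) - j)) + -1 * (2 * σ' - j)
        = -(2 * (σ + σ' - h)) by ring, abs_neg]
      exact near_abs_two _
  rw [hA3, near_abs_two, near_abs_two]
  linarith [key]

/-- The column inequality of the middle zone, the first vertex on the page `e` and the second
on the other page in column `j`. -/
theorem near_col_diff (h g g' : ℕ) (ε ε' : ℕ → ℤ) (hε : IsSign ε) (hε' : IsSign ε')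
    (hgh : g ≤ h) (hg' : h + 1 ≤ g') (hgn : g' ≤ 2 * h + 1) (hnear : g' ≤ g + h + 1)
    (j : ℕ) (hj1 : g ≤ j) (hj2 : j < g') (e : ℤ) (he : e = 1 ∨ e = -1) (hj : ε j = e)
    (hj' : ε' j = -e) :
    -2 * |cnt e ε (j + 1) g' - ((h : ℤ) - cnt e ε' 0 g - cnt e ε g' (2 * h + 1))|
        + |omega (2 * h + 1) g ε j| + |omegaL (2 * h + 1) g' ε' j|
        + 4 * (if cnt (-e) ε g' (2 * h + 1) ≤ cnt e ε (j + 1) g' then
            min (cnt e ε' g j)
              (max ((h : ℤ) - cnt e ε' 0 g - cnt e ε g' (2 * h + 1) - cnt e ε (j + 1) g') 0)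
            else 0)
        - 4 * max (min (cnt (-e) ε (j + 1) g')
              ((h : ℤ) - cnt (-e) ε' 0 g - cnt (-e) ε g' (2 * h + 1) - cnt (-e) ε' g j)
            - cnt e ε g' (2 * h + 1)) 0
      ≤ ∑ l ∈ Finset.Ico g j, (1 + e * ε' l) - agree2 (2 * h + 1) g g' ε ε' j := by
  have hjn : j < 2 * h + 1 := by omega
  have hagree : agree2 (2 * h + 1) g g' ε ε' j
      = |prof (2 * h + 1) g ε j + prof (2 * h + 1) g' ε' j| := by
    unfold agree2
    rw [if_pos ⟨hj1, hj2⟩]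
  rw [cross_cnt e he ε' hε' g j, hagree]
  unfold prof
  rw [omega_cnt_right h g j ε hε hj1 hjn, omegaL_cnt h g' j ε' hε' hj2 hgn,
    phi_cnt_right h g j ε hε hj1 hjn, phi_cnt_left h g' j ε' hε' hj2 hgn, hj, hj']
  have hs : cnt e ε (j + 1) (2 * h + 1) = cnt e ε g' (2 * h + 1) + cnt e ε (j + 1) g' := by
    rw [cnt_split e ε (j + 1) g' (2 * h + 1) (by omega) hgn, add_comm]
  have hs' : cnt (-e) ε' 0 j = cnt (-e) ε' 0 g + cnt (-e) ε' g j :=
    cnt_split (-e) ε' 0 g j (Nat.zero_le g) hj1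
  have ha := cnt_add_sign' e he ε' hε' 0 g (Nat.zero_le g)
  have hc := cnt_add_sign' e he ε hε g' (2 * h + 1) hgn
  have hxx := cnt_add_sign' e he ε' hε' g j hj1
  have hyy := cnt_add_sign' e he ε hε (j + 1) g' (by omega)
  have n1 := cnt_nonneg e ε' 0 g
  have n2 := cnt_nonneg (-e) ε' 0 g
  have n3 := cnt_nonneg e ε g' (2 * h + 1)
  have n4 := cnt_nonneg (-e) ε g' (2 * h + 1)
  have n5 := cnt_nonneg e ε' g j
  have n6 := cnt_nonneg (-e) ε' g j
  have n7 := cnt_nonneg e ε (j + 1) g'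
  have n8 := cnt_nonneg (-e) ε (j + 1) g'
  rw [hs, hs']
  push_cast at ha hc hxx hyy ⊢
  generalize cnt e ε' 0 g = aS at *
  generalize cnt (-e) ε' 0 g = aO at *
  generalize cnt e ε g' (2 * h + 1) = cS at *
  generalize cnt (-e) ε g' (2 * h + 1) = cO at *
  generalize cnt e ε' g j = x at *
  generalize cnt (-e) ε' g j = xO at *
  generalize cnt e ε (j + 1) g' = y at *
  generalize cnt (-e) ε (j + 1) g' = yO at *
  have hxO : xO = (j : ℤ) - g - x := by linarith
  have hyO : yO = ((h : ℤ) - g) + ((g' : ℤ) - h - 1) - ((j : ℤ) - g) - y := by linarith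
  subst hxO hyO
  have hσ := pc_clamp_cases (cS + y) ((h : ℤ) - g) h (2 * (h : ℤ) - j) (by omega) (by omega)
    (by omega)
  have hσ' := pc_clamp_cases (aO + ((j : ℤ) - g - x)) ((g' : ℤ) - h - 1) h j (by omega)
    (by omega) (by omega)
  generalize min (h : ℤ) (min (2 * (h : ℤ) - j) (max (cS + y) ((h : ℤ) - g))) = σ at *
  generalize min (h : ℤ) (min (j : ℤ) (max (aO + ((j : ℤ) - g - x)) ((g' : ℤ) - h - 1)))
    = σ' at *
  have key := near_col_diff_int h ((h : ℤ) - g) ((g' : ℤ) - h - 1) aS aO cS cO ((j : ℤ) - g)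
    x y σ σ' (by omega) (by omega) (by omega) n1 n2 n4 (by omega) (by omega) (by omega)
    (by omega) n5 (by omega) hσ hσ'
  have hA3 : |e * (2 * σ - (2 * (h : ℤ) - j)) + -e * (2 * σ' - j)|
      = 2 * |σ - σ' + ((j : ℤ) - g) - ((h : ℤ) - g)| := by
    rcases he with rfl | rfl
    · rw [show (1 : ℤ) * (2 * σ - (2 * (h : ℤ) - j)) + -1 * (2 * σ' - j)
        = 2 * (σ - σ' + ((j : ℤ) - g) - ((h : ℤ) - g)) by ring]
      exact near_abs_two _
    · rw [show (-1 : ℤ) * (2 * σ - (2 * (h : ℤ) - j)) + - -1 * (2 * σ' - j)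
        = -(2 * (σ - σ' + ((j : ℤ) - g) - ((h : ℤ) - g))) by ring, abs_neg]
      exact near_abs_two _
  rw [hA3, near_abs_two, near_abs_two]
  linarith [key]

end Vale.Agent.Lib.P040.TP.Gen.NB
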