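import Vale.Agent.Lib.P040.TP.Gen.NB.Cnt

/-!
Double counting of the pairs `l < k` of middle columns with `ε' l = ε k = e`: the two column
sums of the middle zone that are compared here count the same set of pairs.
-/

namespace Vale.Agent.Lib.P040.TP.Gen.NB

/-- The points of sign `e` of an interval, listed from the left, have ranks `0, 1, 2, ...`:
the number of them with rank below `D`. -/
theorem enum_left (e : ℤ) (ε' : ℕ → ℤ) (g : ℕ) (D : ℤ) (d : ℕ) :
    ∑ l ∈ Finset.Ico g (g + d), (if ε' l = e ∧ cnt e ε' g l < D then (1 : ℤ) else 0)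
      = min (cnt e ε' g (g + d)) (max D 0) := by
  induction d with
  | zero => simp [cnt_self]
  | succ d ih =>
    rw [← add_assoc, Finset.sum_Ico_succ_top (by omega), ih,
      cnt_succ_right e ε' g (g + d) (by omega)]
    have h0 := cnt_nonneg e ε' g (g + d)
    generalize cnt e ε' g (g + d) = X at *
    by_cases h : ε' (g + d) = e
    · simp only [h, true_and, if_true]
      split_ifs <;> omega
    · simp only [h, false_and, if_false]
      omega

/-- The points of sign `e` of an interval, listed from the right: the number of them with rank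
in `[c, D)`. -/
theorem enum_right (e : ℤ) (ε : ℕ → ℤ) (g' : ℕ) (c D : ℤ) (hc : 0 ≤ c) (d : ℕ) :
    ∀ m : ℕ, m + d = g' →
    ∑ k ∈ Finset.Ico m g',
        (if ε k = e ∧ c ≤ cnt e ε (k + 1) g' ∧ cnt e ε (k + 1) g' < D then (1 : ℤ) else 0)
      = max (min (cnt e ε m g') D - c) 0 := by
  induction d with
  | zero =>
    intro m hm
    have hmg : m = g' := by omega
    subst hmg
    simp only [Finset.Ico_self, Finset.sum_empty, cnt_self]
    omega
  | succ d ih =>
    intro m hm
    rw [Finset.sum_eq_sum_Ico_succ_bot (by omega), ih (m + 1) (by omega),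
      cnt_succ_left e ε m g' (by omega)]
    have h0 := cnt_nonneg e ε (m + 1) g'
    generalize cnt e ε (m + 1) g' = Z at *
    by_cases h : ε m = e
    · simp only [h, true_and, if_true]
      split_ifs <;> omega
    · simp only [h, false_and, if_false]
      omega

/-- The double count. -/
theorem pair_count (e : ℤ) (ε ε' : ℕ → ℤ) (g g' : ℕ) (c u : ℤ) (hc : 0 ≤ c) :
    ∑ k ∈ Finset.Ico g g',
        (if ε k = e then
          (if c ≤ cnt e ε (k + 1) g' then
            min (cnt e ε' g k) (max (u - cnt e ε (k + 1) g') 0) else 0) else 0)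
      = ∑ l ∈ Finset.Ico g g',
        (if ε' l = e then max (min (cnt e ε (l + 1) g') (u - cnt e ε' g l) - c) 0 else 0) := by
  have hL : ∀ k ∈ Finset.Ico g g',
      (if ε k = e then
          (if c ≤ cnt e ε (k + 1) g' then
            min (cnt e ε' g k) (max (u - cnt e ε (k + 1) g') 0) else 0) else 0)
        = ∑ l ∈ Finset.Ico g k,
            (if ε' l = e ∧ ε k = e ∧ c ≤ cnt e ε (k + 1) g'
                ∧ cnt e ε' g l + cnt e ε (k + 1) g' < u then (1 : ℤ) else 0) := by
    intro k hk
    obtain ⟨hk1, hk2⟩ := Finset.mem_Ico.mp hk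
    by_cases h1 : ε k = e
    · by_cases h2 : c ≤ cnt e ε (k + 1) g'
      · rw [if_pos h1, if_pos h2]
        obtain ⟨d, rfl⟩ : ∃ d, k = g + d := ⟨k - g, by omega⟩
        rw [← enum_left e ε' g (u - cnt e ε (g + d + 1) g') d]
        apply Finset.sum_congr rfl
        intro l _
        apply if_congr _ rfl rfl
        constructor
        · rintro ⟨a1, a2⟩
          exact ⟨a1, h1, h2, by omega⟩
        · rintro ⟨a1, _, _, a4⟩
          exact ⟨a1, by omega⟩
      · rw [if_pos h1, if_neg h2]
        symm
        apply Finset.sum_eq_zero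
        intro l _
        rw [if_neg]
        tauto
    · rw [if_neg h1]
      symm
      apply Finset.sum_eq_zero
      intro l _
      rw [if_neg]
      tauto
  have hR : ∀ l ∈ Finset.Ico g g',
      (if ε' l = e then max (min (cnt e ε (l + 1) g') (u - cnt e ε' g l) - c) 0 else 0)
        = ∑ k ∈ Finset.Ico (l + 1) g',
            (if ε' l = e ∧ ε k = e ∧ c ≤ cnt e ε (k + 1) g'
                ∧ cnt e ε' g l + cnt e ε (k + 1) g' < u then (1 : ℤ) else 0) := by
    intro l hl
    obtain ⟨hl1, hl2⟩ := Finset.mem_Ico.mp hl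
    by_cases h1 : ε' l = e
    · rw [if_pos h1,
        ← enum_right e ε g' c (u - cnt e ε' g l) hc (g' - (l + 1)) (l + 1) (by omega)]
      apply Finset.sum_congr rfl
      intro k _
      apply if_congr _ rfl rfl
      constructor
      · rintro ⟨a1, a2, a3⟩
        exact ⟨h1, a1, a2, by omega⟩
      · rintro ⟨_, a2, a3, a4⟩
        exact ⟨a2, a3, by omega⟩
    · rw [if_neg h1]
      symm
      apply Finset.sum_eq_zero
      intro k _
      rw [if_neg]
      tauto
  rw [Finset.sum_congr rfl hL, Finset.sum_congr rfl hR]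
  exact (Finset.sum_Ico_Ico_comm' g g' (fun l k =>
    (if ε' l = e ∧ ε k = e ∧ c ≤ cnt e ε (k + 1) g'
        ∧ cnt e ε' g l + cnt e ε (k + 1) g' < u then (1 : ℤ) else 0))).symm

end Vale.Agent.Lib.P040.TP.Gen.NB
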