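import Vale.Agent.Lib.P040.TP.Gen.NB.Cnt

/-!
The rank sum of the middle zone in closed form, and the final count identity of the near
regime.
-/

namespace Vale.Agent.Lib.P040.TP.Gen.NB

theorem near_RR_succ (x : ℤ) : RR (x + 1) = RR x + 2 * max x 0 := by
  unfold RR
  rcases le_or_gt 0 x with hx | hx
  · rw [max_eq_left hx, max_eq_left (by linarith : (0 : ℤ) ≤ x + 1)]
    ring
  · rw [max_eq_right (by linarith : x ≤ 0), max_eq_right (by linarith : x + 1 ≤ 0)]
    ring

theorem near_RR_pair (x : ℤ) : RR x + RR (1 - x) = x * (x - 1) := by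
  unfold RR
  rcases le_or_gt x 0 with hx | hx
  · rw [max_eq_right hx, max_eq_left (by linarith : (0 : ℤ) ≤ 1 - x)]
    ring
  · rw [max_eq_left (by linarith : (0 : ℤ) ≤ x), max_eq_right (by linarith : 1 - x ≤ 0)]
    ring

theorem near_RR_nonneg (x : ℤ) : 0 ≤ RR x := by
  unfold RR
  rcases le_or_gt x 0 with hx | hx
  · rw [max_eq_right hx]
    simp
  · rw [max_eq_left (by linarith : (0 : ℤ) ≤ x)]
    nlinarith

theorem near_RR_of_le_one (x : ℤ) (hx : x ≤ 1) : RR x = 0 := by
  unfold RR
  rcases le_or_gt x 0 with h0 | h0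
  · rw [max_eq_right h0]
    simp
  · have h1 : x = 1 := by omega
    subst h1
    simp

/-- The points of sign `e` of the interval `[m, g')`, listed from the right, have ranks
`0, 1, 2, ...`: closed form of the sum of the distances of the ranks to `u`. -/
theorem rank_sum (e : ℤ) (ε : ℕ → ℤ) (g' : ℕ) (u : ℤ) (d : ℕ) :
    ∀ m : ℕ, m + d = g' →
    2 * ∑ j ∈ Finset.Ico m g', (if ε j = e then |cnt e ε (j + 1) g' - u| else 0)
      = 2 * cnt e ε m g' * u - cnt e ε m g' * (cnt e ε m g' - 1)
        + 2 * RR (cnt e ε m g' - u) - 2 * RR (-u) := by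
  induction d with
  | zero =>
    intro m hm
    have hmg : m = g' := by omega
    subst hmg
    simp only [Finset.Ico_self, Finset.sum_empty, cnt_self]
    ring_nf
  | succ d ih =>
    intro m hm
    rw [Finset.sum_eq_sum_Ico_succ_bot (by omega), cnt_succ_left e ε m g' (by omega)]
    have ih' := ih (m + 1) (by omega)
    generalize cnt e ε (m + 1) g' = Z at *
    generalize ∑ j ∈ Finset.Ico (m + 1) g', (if ε j = e then |cnt e ε (j + 1) g' - u| else 0)
      = S at *
    by_cases h : ε m = e
    · simp only [h, if_true]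
      have hRR := near_RR_succ (Z - u)
      have habs : |Z - u| = u - Z + 2 * max (Z - u) 0 := by
        rw [abs_eq_max_neg]
        omega
      rw [show Z + 1 - u = Z - u + 1 by ring, hRR, habs]
      linear_combination ih'
    · simp only [h, if_false]
      rw [add_zero, zero_add]
      exact ih'

/-- The final count identity of the near regime. -/
theorem near_final (h g g' a1 a2 c1 c2 Z1 Z2 : ℤ) (ha : a1 + a2 = g)
    (hc : c1 + c2 = 2 * h + 1 - g') (hZ : Z1 + Z2 = g' - g) :
    2 * ((h + 1 - g) * (h - g)) + 2 * ((g' - h - 1) * (g' - h))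
        + ((c1 - c2) + (a1 - a2)) ^ 2 - (g - (2 * h + 1 - g')) ^ 2
        - 2 * ((2 * Z1 * (h - a1 - c1) - Z1 * (Z1 - 1)
              + 2 * RR (Z1 - (h - a1 - c1)) - 2 * RR (-(h - a1 - c1)))
            + (2 * Z2 * (h - a2 - c2) - Z2 * (Z2 - 1)
              + 2 * RR (Z2 - (h - a2 - c2)) - 2 * RR (-(h - a2 - c2))))
      = 4 * RR (-(h - a1 - c1)) + 4 * RR (-(h - a2 - c2)) := by
  have hp := near_RR_pair (Z1 - (h - a1 - c1))
  have e1 : Z2 - (h - a2 - c2) = 1 - (Z1 - (h - a1 - c1)) := by linarith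
  rw [e1]
  have ha2 : a2 = g - a1 := by linarith
  have hc2 : c2 = 2 * h + 1 - g' - c1 := by linarith
  have hZ2 : Z2 = g' - g - Z1 := by linarith
  subst ha2 hc2 hZ2
  linear_combination (-4) * hp

end Vale.Agent.Lib.P040.TP.Gen.NB
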