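import Vale.Agent.Lib.P040.TP.Gen.NB.Col
import Vale.Agent.Lib.P040.TP.Gen.NB.Pair
import Vale.Agent.Lib.P040.TP.Gen.NB.Rank
import Vale.Agent.Lib.P040.TP.Gen.WSum
import Vale.Agent.Lib.P040.TP.Gen.ZRt
import Vale.Agent.Lib.P040.TP.Gen.MirrorA

/-!
The three zones of a straddling pair in the near regime: the left zone (both vertices to the
right), the right zone (both vertices to the left) and the middle zone, and the totals of the
clamp corrections of the two vertices.
-/

namespace Vale.Agent.Lib.P040.TP.Gen.NB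

/-- Total of the clamp corrections of the first vertex: absolute values over the middle zone,
signed values over the right zone. -/
theorem near_W (h g g' : ℕ) (ε : ℕ → ℤ) (hε : IsSign ε) (hgh : g ≤ h) (hg' : h + 1 ≤ g')
    (hgn : g' ≤ 2 * h + 1) :
    ∑ j ∈ Finset.Ico g g', |omega (2 * h + 1) g ε j|
        + ∑ j ∈ Finset.Ico g' (2 * h + 1), omega (2 * h + 1) g ε j
      = ((h : ℤ) + 1 - g) * ((h : ℤ) - g) := by
  have hgg : g ≤ g' := by omega
  have h1 := W_abs h g g ε hε (by omega) le_rfl (by omega)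
  have h2 := W_abs h g g' ε hε (by omega) hgg hgn
  have h3 := W_sgn h g g' ε hε (by omega) hgg hgn
  have hsplit := Finset.sum_Ico_consecutive (fun j => |omega (2 * h + 1) g ε j|) hgg hgn
  have a1 := cnt_add (2 * h + 1) g (by omega) ε
  have a2 := cnt_add (2 * h + 1) g' hgn ε
  have p1 := cntp_nonneg (2 * h + 1) g ε
  have m1 := cntm_nonneg (2 * h + 1) g ε
  have p2 := cntp_nonneg (2 * h + 1) g' ε
  have m2 := cntm_nonneg (2 * h + 1) g' ε
  push_cast at a1 a2
  have r1 : RR ((h : ℤ) + 1 - g - cntp (2 * h + 1) ε g) = RR (cntm (2 * h + 1) ε g - h) := by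
    congr 1
    linarith
  have r2 : RR ((h : ℤ) + 1 - g - cntm (2 * h + 1) ε g) = RR (cntp (2 * h + 1) ε g - h) := by
    congr 1
    linarith
  have r3 : RR ((h : ℤ) + 1 - g - cntp (2 * h + 1) ε g - cntm (2 * h + 1) ε g) = 0 :=
    near_RR_of_le_one _ (by linarith)
  have r4 : RR (cntp (2 * h + 1) ε g' - h) = 0 := near_RR_of_le_one _ (by linarith)
  have r5 : RR (cntm (2 * h + 1) ε g' - h) = 0 := near_RR_of_le_one _ (by linarith)
  rw [r1, r2, r3] at h1
  rw [r4, r5] at h2 h3
  linarith

/-- The right sum of the reversed sequence is the left sum of the sequence. -/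
private lemma near_suf_rev (h : ℕ) (ε : ℕ → ℤ) (j : ℕ) (hj : j < 2 * h + 1) :
    suf (2 * h + 1) (rev (2 * h + 1) ε) (2 * h - j) = pre ε j := by
  unfold pre suf rev
  refine Finset.sum_nbij' (fun l => 2 * h - l) (fun m => 2 * h - m) ?_ ?_ ?_ ?_ ?_
  · intro l hl
    simp only [Finset.mem_Ico] at hl
    simp only [Finset.mem_range]
    omega
  · intro m hm
    simp only [Finset.mem_range] at hm
    simp only [Finset.mem_Ico]
    omega
  · intro l hl
    simp only [Finset.mem_Ico] at hl
    omega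
  · intro m hm
    simp only [Finset.mem_range] at hm
    omega
  · intro l _
    congr 1

/-- The clamp correction of a vertex in a column to its left is the clamp correction of the
reflected vertex in the reflected column. -/
theorem omegaL_mirror (h g' : ℕ) (ε' : ℕ → ℤ) (hε' : IsSign ε') (hgn : g' ≤ 2 * h + 1) (j : ℕ)
    (hj : j < 2 * h + 1) :
    omegaL (2 * h + 1) g' ε' j
      = omega (2 * h + 1) (2 * h + 1 - g') (rev (2 * h + 1) ε') (2 * h - j) := by
  have hp := prof_mirror (2 * h + 1) g' ε' hgn j hj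
  simp only [Nat.add_sub_cancel] at hp
  have hr : rev (2 * h + 1) ε' (2 * h - j) = ε' j := by
    unfold rev
    congr 1
    omega
  unfold prof at hp
  rw [hr] at hp
  have hphi : phi (2 * h + 1) (2 * h + 1 - g') (rev (2 * h + 1) ε') (2 * h - j)
      = phi (2 * h + 1) g' ε' j := by
    rcases hε' j with he | he
    · rw [he] at hp
      linarith
    · rw [he] at hp
      linarith
  unfold omegaL omega
  rw [hphi, hr, near_suf_rev h ε' j hj]

/-- Total of the clamp corrections of the second vertex: absolute values over the middle zone,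
signed values over the left zone. -/
theorem near_W' (h g g' : ℕ) (ε' : ℕ → ℤ) (hε' : IsSign ε') (hgh : g ≤ h) (hg' : h + 1 ≤ g')
    (hgn : g' ≤ 2 * h + 1) :
    ∑ j ∈ Finset.Ico g g', |omegaL (2 * h + 1) g' ε' j|
        + ∑ j ∈ Finset.range g, omegaL (2 * h + 1) g' ε' j
      = ((g' : ℤ) - h - 1) * ((g' : ℤ) - h) := by
  have hW := near_W h (2 * h + 1 - g') (2 * h + 1 - g) (rev (2 * h + 1) ε')
    (rev_isSign (2 * h + 1) ε' hε') (by omega) (by omega) (by omega)
  have e1 : ∑ j ∈ Finset.Ico g g', |omegaL (2 * h + 1) g' ε' j|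
      = ∑ j ∈ Finset.Ico (2 * h + 1 - g') (2 * h + 1 - g),
          |omega (2 * h + 1) (2 * h + 1 - g') (rev (2 * h + 1) ε') j| := by
    rw [← Finset.sum_Ico_reflect
      (fun j => |omega (2 * h + 1) (2 * h + 1 - g') (rev (2 * h + 1) ε') j|) g
      (show g' ≤ 2 * h + 1 from hgn)]
    apply Finset.sum_congr rfl
    intro j hj
    rw [omegaL_mirror h g' ε' hε' hgn j (by have := (Finset.mem_Ico.mp hj).2; omega)]
  have e2 : ∑ j ∈ Finset.range g, omegaL (2 * h + 1) g' ε' j
      = ∑ j ∈ Finset.Ico (2 * h + 1 - g) (2 * h + 1),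
          omega (2 * h + 1) (2 * h + 1 - g') (rev (2 * h + 1) ε') j := by
    have hrefl := Finset.sum_Ico_reflect
      (fun j => omega (2 * h + 1) (2 * h + 1 - g') (rev (2 * h + 1) ε') j) 0
      (show g ≤ 2 * h + 1 by omega)
    rw [Nat.sub_zero] at hrefl
    rw [← hrefl, Finset.range_eq_Ico]
    apply Finset.sum_congr rfl
    intro j hj
    rw [omegaL_mirror h g' ε' hε' hgn j (by have := (Finset.mem_Ico.mp hj).2; omega)]
  rw [e1, e2, hW]
  have c1 : ((2 * h + 1 - g' : ℕ) : ℤ) = 2 * (h : ℤ) + 1 - g' := by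
    push_cast [Nat.cast_sub hgn]
    ring
  rw [c1]
  ring

end Vale.Agent.Lib.P040.TP.Gen.NB
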